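import Vale.Agent.P160.Structured
import Mathlib

/-!
Structured kernel vectors of symmetric random sign matrices: probability at most `(1/2 + ε) ^ n`.

A vector is structured if outside a small set of coordinates it takes at most `n ^ γ` values,
where `γ < 1/2`.
-/

namespace Vale.Agent.Results.P160.StructuredKernel

open Finset Filter Topology Vale.Agent.P160

lemma eventually_small {γ δ β : ℝ} (hδ : 0 < δ) (hγ1 : γ < 1) (hγβ : γ < β) :
    ∀ᶠ n : ℕ in atTop, 2 * (n : ℝ) ^ γ ≤ δ * n ∧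
      8 * (n : ℝ) ^ γ * (δ * n) ^ (-β) ≤ 1 / 2 ∧ 1 ≤ n := by
  have h : ∀ a : ℝ, 0 < a → Tendsto (fun n : ℕ => (n : ℝ) ^ (-a)) atTop (𝓝 0) := fun a ha =>
    (tendsto_rpow_neg_atTop ha).comp tendsto_natCast_atTop_atTop
  have h1 := ((h (1 - γ) (by linarith)).const_mul 2).eventually
    (eventually_le_nhds (show 2 * (0 : ℝ) < δ by simpa using hδ))
  have h2 := ((h (β - γ) (by linarith)).const_mul (8 * δ ^ (-β))).eventually
    (eventually_le_nhds (show 8 * δ ^ (-β) * (0 : ℝ) < 1 / 2 by norm_num))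
  filter_upwards [h1, h2, eventually_ge_atTop 1] with n hn1 hn2 hn
  have hn0 : (0 : ℝ) < n := by exact_mod_cast hn
  refine ⟨?_, ?_, hn⟩
  · calc 2 * (n : ℝ) ^ γ = 2 * (n : ℝ) ^ (-(1 - γ)) * n := by
          rw [mul_assoc, ← Real.rpow_add_one hn0.ne']; ring_nf
      _ ≤ δ * n := mul_le_mul_of_nonneg_right hn1 hn0.le
  · calc 8 * (n : ℝ) ^ γ * (δ * n) ^ (-β) = 8 * δ ^ (-β) * (n : ℝ) ^ (-(β - γ)) := by
          rw [Real.mul_rpow hδ.le hn0.le, show -(β - γ) = γ + -β by ring, Real.rpow_add hn0]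
          ring
      _ ≤ 1 / 2 := hn2

open Classical in
theorem result : ∀ γ : ℝ, γ < 1 / 2 → ∀ ε : ℝ, 0 < ε → ∃ δ C : ℝ, 0 < δ ∧ 0 < C ∧ ∀ n : ℕ,
    (((Finset.univ : Finset (Sym2 (Fin n) → Bool)).filter fun f =>
      ∃ v : Fin n → ℝ, v ≠ 0 ∧
        (∃ S : Finset (Fin n), (S.card : ℝ) ≤ δ * n ∧ ((Sᶜ.image v).card : ℝ) ≤ (n : ℝ) ^ γ) ∧
        (Matrix.of fun i j => if f s(i, j) then (1 : ℝ) else -1).mulVec v = 0).card : ℝ) /
      (Fintype.card (Sym2 (Fin n) → Bool) : ℝ) ≤ C * (1 / 2 + ε) ^ n := by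
  intro γ hγ ε hε
  obtain ⟨δ₀, C₀, hδ₀, hC₀, hcomp⟩ := compressible ε hε
  set g : ℝ := max γ 0 with hg
  have hgγ : γ ≤ g := le_max_left _ _
  have hg0 : 0 ≤ g := le_max_right _ _
  have hg2 : g < 1 / 2 := max_lt hγ (by norm_num)
  set δ : ℝ := min (δ₀ / 3) ((1 - 2 * g) / 6) with hδd
  have hδ : 0 < δ := lt_min (by linarith) (by linarith)
  have hδ1 : δ ≤ δ₀ / 3 := min_le_left _ _
  have hδ2 : δ ≤ (1 - 2 * g) / 6 := min_le_right _ _
  set β : ℝ := (1 - 3 * δ) / 2 with hβ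
  obtain ⟨N₀, hN₀⟩ := eventually_atTop.1
    (eventually_small hδ (show g < 1 by linarith) (show g < β by linarith))
  refine ⟨δ, C₀ + 1 + 2 ^ N₀, hδ, by positivity, fun n => ?_⟩
  set N : ℝ := (Fintype.card (Sym2 (Fin n) → Bool) : ℝ) with hNdef
  have hN : 0 < N := Nat.cast_pos.2 Fintype.card_pos
  rw [div_le_iff₀ hN]
  rcases lt_or_ge n N₀ with hsmall | hbig
  · calc _ ≤ N := Nat.cast_le.2 (Finset.card_le_univ _)
      _ ≤ 2 ^ N₀ * (1 / 2 + ε) ^ n * N := by
          refine le_mul_of_one_le_left hN.le ?_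
          calc (1 : ℝ) ≤ 2 ^ n * (1 / 2 + ε) ^ n := by
                rw [← mul_pow]; exact one_le_pow₀ (by linarith)
            _ ≤ _ := by gcongr; norm_num
      _ ≤ _ := by gcongr; linarith
  obtain ⟨hKδ, hbase, hn1⟩ := hN₀ n hbig
  have hn0 : (0 : ℝ) < n := by exact_mod_cast hn1
  have hng : 1 ≤ (n : ℝ) ^ g := Real.one_le_rpow (by exact_mod_cast hn1) hg0
  set k : ℕ := ⌊δ * n⌋₊
  set K : ℕ := ⌊(n : ℝ) ^ g⌋₊ + 1
  have hk : (k : ℝ) ≤ δ * n := Nat.floor_le (by positivity)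
  have hK : (K : ℝ) ≤ 2 * (n : ℝ) ^ g := by
    have := Nat.floor_le (show (0 : ℝ) ≤ (n : ℝ) ^ g by positivity)
    simp only [K]; push_cast; linarith
  have hsum : ((k + K + k : ℕ) : ℝ) ≤ 3 * δ * n := by push_cast; linarith
  have hle : k + K + k ≤ n := by
    have : 3 * δ * n ≤ n := mul_le_of_le_one_left hn0.le (by linarith)
    exact_mod_cast hsum.trans this
  set F := (Finset.univ : Finset (Sym2 (Fin n) → Bool)).filter fun f =>
      ∃ v : Fin n → ℝ, v ≠ 0 ∧
        (∃ S : Finset (Fin n), (S.card : ℝ) ≤ δ * n ∧ ((Sᶜ.image v).card : ℝ) ≤ (n : ℝ) ^ γ) ∧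
        (Matrix.of fun i j => if f s(i, j) then (1 : ℝ) else -1).mulVec v = 0
  set F₀ := (Finset.univ : Finset (Sym2 (Fin n) → Bool)).filter fun f =>
      ∃ v : Fin n → ℝ, v ≠ 0 ∧
        (∃ c : ℝ, ((Finset.univ.filter fun i => v i ≠ c).card : ℝ) ≤ δ₀ * n) ∧
        (Matrix.of fun i j => if f s(i, j) then (1 : ℝ) else -1).mulVec v = 0
  set F₁ := (univ : Finset (Sym2 (Fin n) → Bool)).filter fun f =>
        ∃ (S : Finset (Fin n)) (π : Fin n → Fin K) (u : S ⊕ Fin K → ℝ), S.card ≤ k ∧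
          k + K + k ≤ (univ.filter fun j => spread S π u j ≠ 0).card ∧
          (signMat f).mulVec (spread S π u) = 0
  have hsub : F ⊆ F₀ ∪ F₁ := by
    intro f hf
    obtain ⟨v, hv0, ⟨S, hS, him⟩, hA⟩ := (Finset.mem_filter.1 hf).2
    by_cases hsp : (univ.filter fun j => v j ≠ 0).card < k + K + k
    · refine Finset.mem_union_left _ (Finset.mem_filter.2 ⟨Finset.mem_univ _, v, hv0, ⟨0, ?_⟩, hA⟩)
      refine ((Nat.cast_le.2 hsp.le).trans hsum).trans ?_
      exact mul_le_mul_of_nonneg_right (by linarith) hn0.le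
    have hcard : (Sᶜ.image v).card ≤ K := by
      refine le_trans (Nat.le_floor (him.trans ?_)) (Nat.le_succ _)
      exact Real.rpow_le_rpow_of_exponent_le (by exact_mod_cast hn1) hgγ
    obtain ⟨emb⟩ : Nonempty ((Sᶜ.image v : Finset ℝ) ↪ Fin K) :=
      Function.Embedding.nonempty_of_card_le (by simpa using hcard)
    let π : Fin n → Fin K := fun j => if h : j ∈ S then ⟨0, by simp [K]⟩
      else emb ⟨v j, Finset.mem_image_of_mem v (Finset.mem_compl.2 h)⟩
    let u : S ⊕ Fin K → ℝ := fun o => o.elim (fun j => v j.1)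
      (fun a => if h : ∃ x, emb x = a then (h.choose : ℝ) else 0)
    have huv : spread S π u = v := by
      funext j
      by_cases hj : j ∈ S
      · simp [spread, u, hj]
      · have h : ∃ x, emb x = π j := ⟨⟨v j, Finset.mem_image_of_mem v (Finset.mem_compl.2 hj)⟩,
          by simp [π, hj]⟩
        simp only [spread, dif_neg hj, u, Sum.elim_inr, dif_pos h]
        exact (congrArg Subtype.val (emb.injective (h.choose_spec.trans (by simp [π, hj]) :
          emb h.choose = emb ⟨v j, Finset.mem_image_of_mem v (Finset.mem_compl.2 hj)⟩)))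
    refine Finset.mem_union_right _
      (Finset.mem_filter.2 ⟨Finset.mem_univ _, S, π, u, Nat.le_floor hS, ?_, ?_⟩)
    · rw [huv]; omega
    · rw [huv]; exact hA
  have h0 : (F₀.card : ℝ) ≤ C₀ * (1 / 2 + ε) ^ n * N := by
    have := hcomp n
    rwa [div_le_iff₀ hN] at this
  have h1 : (F₁.card : ℝ) ≤ (1 / 2 + ε) ^ n * N := by
    refine (card_structured_le K k k (k + K) le_rfl hle).trans ?_
    rw [mul_right_comm]
    refine mul_le_mul_of_nonneg_right ?_ hN.le
    have hm : δ * n < (k : ℝ) + 1 := Nat.lt_floor_add_one _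
    have hr : (1 - 3 * δ) * n ≤ ((n - (k + K) - k : ℕ) : ℝ) := by
      rw [Nat.cast_sub (by omega), Nat.cast_sub (by omega)]
      push_cast at hsum ⊢
      linarith
    set r := n - (k + K) - k
    have hdn : 1 ≤ δ * n := le_trans (by linarith) hKδ
    have hx : (1 / Real.sqrt ((k : ℝ) + 1)) ^ r ≤ ((δ * n) ^ (-β)) ^ n := by
      calc (1 / Real.sqrt ((k : ℝ) + 1)) ^ r ≤ ((δ * n) ^ (-(1 / 2) : ℝ)) ^ r := by
            refine pow_le_pow_left₀ (by positivity) ?_ r
            rw [Real.rpow_neg (by linarith), ← Real.sqrt_eq_rpow, one_div]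
            exact inv_anti₀ (Real.sqrt_pos.2 (by linarith)) (Real.sqrt_le_sqrt hm.le)
        _ = (δ * n) ^ (-(1 / 2) * (r : ℝ)) := by
            rw [← Real.rpow_natCast, ← Real.rpow_mul (by linarith)]
        _ ≤ (δ * n) ^ (-β * (n : ℝ)) := by
            refine Real.rpow_le_rpow_of_exponent_le hdn ?_
            rw [hβ]; linarith
        _ = _ := by rw [Real.rpow_mul (by linarith), Real.rpow_natCast]
    calc (4 * K : ℝ) ^ n * (1 / Real.sqrt ((k : ℝ) + 1)) ^ r
        ≤ (8 * (n : ℝ) ^ g) ^ n * ((δ * n) ^ (-β)) ^ n :=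
          mul_le_mul (pow_le_pow_left₀ (by positivity) (by linarith) n) hx (by positivity)
            (by positivity)
      _ = (8 * (n : ℝ) ^ g * (δ * n) ^ (-β)) ^ n := (mul_pow _ _ _).symm
      _ ≤ _ := pow_le_pow_left₀ (by positivity) (by linarith) n
  calc (F.card : ℝ) ≤ F₀.card + F₁.card := by
        exact_mod_cast (Finset.card_le_card hsub).trans (Finset.card_union_le _ _)
    _ ≤ (C₀ + 1) * (1 / 2 + ε) ^ n * N := by linarith
    _ ≤ _ := mul_le_mul_of_nonneg_right (mul_le_mul_of_nonneg_right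
        (le_add_of_nonneg_right (by positivity)) (by positivity)) hN.le

end Vale.Agent.Results.P160.StructuredKernel
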